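import Mathlib

namespace Vale.Agent.Lib.P042

/-- Ruzsa's digit set: the numbers below `m^(2k)` whose base-`m` digits in even positions lie
in `R` (the digits in odd positions are arbitrary). -/
def ruzsaSet (m : ℕ) (R : Finset ℕ) : ℕ → Finset ℕ
  | 0 => {0}
  | k + 1 => ((R ×ˢ Finset.range m) ×ˢ ruzsaSet m R k).image
      (fun x => x.1.1 + m * x.1.2 + m ^ 2 * x.2)

theorem ruzsaSet_lt {m : ℕ} {R : Finset ℕ} (hRm : ∀ a ∈ R, a < m) :
    ∀ k, ∀ x ∈ ruzsaSet m R k, x < m ^ (2 * k)
  | 0, x, hx => by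
    simp only [ruzsaSet, Finset.mem_singleton] at hx
    simp [hx]
  | k + 1, x, hx => by
    simp only [ruzsaSet, Finset.mem_image, Finset.mem_product, Finset.mem_range, Prod.exists] at hx
    obtain ⟨r, t, y, ⟨⟨hr, ht⟩, hy⟩, rfl⟩ := hx
    have h1 := hRm r hr
    have h2 := ruzsaSet_lt hRm k y hy
    have h3 : r + m * t < m ^ 2 := by nlinarith
    have h4 : m ^ 2 * (y + 1) ≤ m ^ 2 * m ^ (2 * k) := Nat.mul_le_mul_left _ h2
    have h5 : m ^ (2 * (k + 1)) = m ^ 2 * m ^ (2 * k) := by ring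
    rw [h5]
    nlinarith

theorem ruzsaSet_card {m : ℕ} {R : Finset ℕ} (hRm : ∀ a ∈ R, a < m) :
    ∀ k, (ruzsaSet m R k).card = (R.card * m) ^ k
  | 0 => by simp [ruzsaSet]
  | k + 1 => by
    rw [ruzsaSet, Finset.card_image_of_injOn, Finset.card_product, Finset.card_product,
      Finset.card_range, ruzsaSet_card hRm k, pow_succ]
    · ring
    · rintro ⟨⟨r, t⟩, y⟩ hx ⟨⟨r', t'⟩, y'⟩ hx' h
      simp only [Finset.coe_product, Set.mem_prod, Finset.mem_coe, Finset.mem_range] at hx hx'
      simp only at h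
      obtain ⟨⟨hr, ht⟩, -⟩ := hx
      obtain ⟨⟨hr', ht'⟩, -⟩ := hx'
      have hr1 := hRm r hr
      have hr1' := hRm r' hr'
      have hmpos : 0 < m := by omega
      have e1 : r + m * t + m ^ 2 * y = r + m * (t + m * y) := by ring
      have e2 : r' + m * t' + m ^ 2 * y' = r' + m * (t' + m * y') := by ring
      rw [e1, e2] at h
      have h1 : r = r' := by
        have := congrArg (· % m) h
        simp only [Nat.add_mul_mod_self_left] at this
        rwa [Nat.mod_eq_of_lt hr1, Nat.mod_eq_of_lt hr1'] at this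
      subst h1
      have h2 : t + m * y = t' + m * y' := by
        have : m * (t + m * y) = m * (t' + m * y') := by omega
        exact Nat.eq_of_mul_eq_mul_left hmpos this
      have h3 : t = t' := by
        have := congrArg (· % m) h2
        simp only [Nat.add_mul_mod_self_left] at this
        rwa [Nat.mod_eq_of_lt ht, Nat.mod_eq_of_lt ht'] at this
      subst h3
      have h4 : y = y' := by
        have : m * y = m * y' := by omega
        exact Nat.eq_of_mul_eq_mul_left hmpos this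
      subst h4
      rfl

theorem ruzsaSet_sqfree {m : ℕ} {R : Finset ℕ} (hsq : Squarefree m) (hRm : ∀ a ∈ R, a < m)
    (hR : ∀ a ∈ R, ∀ b ∈ R, a ≠ b → ∀ n : ℤ, ¬ (m : ℤ) ∣ (a : ℤ) - b - n ^ 2) :
    ∀ k, ∀ x ∈ ruzsaSet m R k, ∀ y ∈ ruzsaSet m R k, x ≠ y → ∀ n : ℤ, (x : ℤ) - y ≠ n ^ 2
  | 0, x, hx, y, hy, hxy, n, _ => by
    simp only [ruzsaSet, Finset.mem_singleton] at hx hy
    exact hxy (hx.trans hy.symm)
  | k + 1, x, hx, y, hy, hxy, n, hn => by
    simp only [ruzsaSet, Finset.mem_image, Finset.mem_product, Finset.mem_range, Prod.exists]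
      at hx hy
    obtain ⟨r, t, x', ⟨⟨hr, ht⟩, hx'⟩, rfl⟩ := hx
    obtain ⟨r', t', y', ⟨⟨hr', ht'⟩, hy'⟩, rfl⟩ := hy
    push_cast at hn
    have hmpos : 0 < m := lt_of_le_of_lt (Nat.zero_le _) (hRm r hr)
    have hsqZ : Squarefree (m : ℤ) := Int.squarefree_natCast.mpr hsq
    have hdvd : ∀ z : ℤ, (m : ℤ) ∣ z ^ 2 → (m : ℤ) ∣ z :=
      fun z hz => (hsqZ.dvd_pow_iff_dvd two_ne_zero).mp hz
    have hm0 : (m : ℤ) ≠ 0 := by positivity
    by_cases hrr : r = r'
    · subst hrr
      by_cases htt : t = t'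
      · subst htt
        have hxy' : x' ≠ y' := by
          rintro rfl
          exact hxy rfl
        have h1 : n ^ 2 = (m : ℤ) ^ 2 * ((x' : ℤ) - y') := by linarith
        have h2 : (m : ℤ) ∣ n := by
          apply hdvd
          rw [h1]
          exact Dvd.dvd.mul_right (dvd_pow_self _ two_ne_zero) _
        obtain ⟨n1, rfl⟩ := h2
        have h3 : (x' : ℤ) - y' = n1 ^ 2 := by
          have hm2 : (m : ℤ) ^ 2 ≠ 0 := by positivity
          apply mul_left_cancel₀ hm2
          rw [← h1]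
          ring
        exact ruzsaSet_sqfree hsq hRm hR k x' hx' y' hy' hxy' n1 h3
      · have h1 : n ^ 2 = (m : ℤ) * (((t : ℤ) - t') + m * ((x' : ℤ) - y')) := by linarith
        have h2 : (m : ℤ) ∣ n := by
          apply hdvd
          rw [h1]
          exact dvd_mul_right _ _
        obtain ⟨n1, rfl⟩ := h2
        have h3 : ((t : ℤ) - t') + m * ((x' : ℤ) - y') = m * n1 ^ 2 := by
          apply mul_left_cancel₀ hm0
          rw [← h1]
          ring
        have h4 : (m : ℤ) ∣ (t : ℤ) - t' := by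
          have : (t : ℤ) - t' = m * (n1 ^ 2 - ((x' : ℤ) - y')) := by linarith
          rw [this]
          exact dvd_mul_right _ _
        have h5 : |(t : ℤ) - t'| < m := by
          rw [abs_lt]
          constructor <;> omega
        have h6 := Int.eq_zero_of_abs_lt_dvd h4 h5
        apply htt
        omega
    · apply hR r hr r' hr' hrr n
      refine ⟨-(((t : ℤ) - t') + m * ((x' : ℤ) - y')), ?_⟩
      linarith

end Vale.Agent.Lib.P042
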