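import Mathlib
import Vale.Agent.Lib.P042.Ruzsa

namespace Vale.Agent.Lib.P042

theorem rpow_key (m K : ℝ) (hm : 1 < m) (hK : 0 < K) :
    (m ^ 2) ^ ((1 + Real.log K / Real.log m) / 2) = K * m := by
  have hm0 : 0 < m := by linarith
  have hlog : 0 < Real.log m := Real.log_pos hm
  have h1 : (m ^ 2 : ℝ) = m ^ (2 : ℝ) := by
    rw [Real.rpow_two]
  rw [h1, ← Real.rpow_mul hm0.le]
  have h2 : (2 : ℝ) * ((1 + Real.log K / Real.log m) / 2) = 1 + Real.log K / Real.log m := by ring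
  rw [h2, Real.rpow_add hm0, Real.rpow_one]
  have h3 : m ^ (Real.log K / Real.log m) = K := by
    rw [Real.rpow_def_of_pos hm0]
    have : Real.log m * (Real.log K / Real.log m) = Real.log K := by
      field_simp
    rw [this, Real.exp_log hK]
  rw [h3]
  ring

/-- Ruzsa's lower bound: a square-difference-free residue set `R` modulo a squarefree `m` gives
square-difference-free subsets of `{1, …, N}` of size at least `N^γ / (|R| m)` with
`γ = (1 + log |R| / log m) / 2`. -/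
theorem ruzsa_lower {m : ℕ} {R : Finset ℕ} (hm : 2 ≤ m) (hsq : Squarefree m)
    (hRm : ∀ a ∈ R, a < m)
    (hR : ∀ a ∈ R, ∀ b ∈ R, a ≠ b → ∀ n : ℤ, ¬ (m : ℤ) ∣ (a : ℤ) - b - n ^ 2)
    (hRne : R.Nonempty) (N : ℕ) (hN : 1 ≤ N) :
    ∃ A : Finset ℕ, A ⊆ Finset.Icc 1 N ∧
      (∀ a ∈ A, ∀ b ∈ A, ∀ n : ℕ, 1 ≤ n → (a : ℤ) - b ≠ (n : ℤ) ^ 2) ∧
      (N : ℝ) ^ ((1 + Real.log R.card / Real.log m) / 2) / (R.card * m) ≤ A.card := by
  set k := Nat.log (m ^ 2) N with hk
  have hb : 1 < m ^ 2 := by nlinarith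
  have h1 : (m ^ 2) ^ k ≤ N := Nat.pow_log_le_self _ (by omega)
  have h2 : N < (m ^ 2) ^ (k + 1) := Nat.lt_pow_succ_log_self hb N
  refine ⟨(ruzsaSet m R k).image (· + 1), ?_, ?_, ?_⟩
  · intro a ha
    simp only [Finset.mem_image] at ha
    obtain ⟨x, hx, rfl⟩ := ha
    have := ruzsaSet_lt hRm k x hx
    rw [pow_mul] at this
    simp only [Finset.mem_Icc]
    omega
  · intro a ha b hb' n hn h
    simp only [Finset.mem_image] at ha hb'
    obtain ⟨x, hx, rfl⟩ := ha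
    obtain ⟨y, hy, rfl⟩ := hb'
    have hxy : x ≠ y := by
      rintro rfl
      push_cast at h
      have h0 : (n : ℤ) ^ 2 = 0 := by linarith
      have h00 : (n : ℤ) = 0 := by
        rcases pow_eq_zero_iff (two_ne_zero) |>.mp h0 with h' 
        exact h'
      have : n = 0 := by exact_mod_cast h00
      omega
    apply ruzsaSet_sqfree hsq hRm hR k x hx y hy hxy (n : ℤ)
    push_cast at h
    linarith
  · have hcard : ((ruzsaSet m R k).image (· + 1)).card = (R.card * m) ^ k := by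
      rw [Finset.card_image_of_injective _ (add_left_injective 1), ruzsaSet_card hRm k]
    rw [hcard]
    have hK1 : 1 ≤ R.card := Finset.card_pos.mpr hRne
    have hKpos : (0 : ℝ) < R.card := by exact_mod_cast hK1
    have hmR : (1 : ℝ) < m := by exact_mod_cast (by omega : 1 < m)
    have hlogm : 0 < Real.log m := Real.log_pos hmR
    have hlogK : 0 ≤ Real.log R.card := Real.log_nonneg (by exact_mod_cast hK1)
    set γ : ℝ := (1 + Real.log R.card / Real.log m) / 2 with hγ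
    have hγ0 : 0 ≤ γ := by
      rw [hγ]
      have : 0 ≤ Real.log R.card / Real.log m := div_nonneg hlogK hlogm.le
      linarith
    have hkey : ((m : ℝ) ^ 2) ^ γ = R.card * m := rpow_key m R.card hmR hKpos
    have hKm : (0 : ℝ) < R.card * m := by positivity
    have h3 : (N : ℝ) ≤ ((m : ℝ) ^ 2) ^ (k + 1) := by
      have : (N : ℝ) ≤ (((m ^ 2) ^ (k + 1) : ℕ) : ℝ) := by exact_mod_cast h2.le
      simpa using this
    have h4 : (N : ℝ) ^ γ ≤ (((m : ℝ) ^ 2) ^ (k + 1)) ^ γ :=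
      Real.rpow_le_rpow (by positivity) h3 hγ0
    have h5 : (((m : ℝ) ^ 2) ^ (k + 1)) ^ γ = ((R.card : ℝ) * m) ^ (k + 1) := by
      rw [← Real.rpow_natCast, ← Real.rpow_mul (by positivity), mul_comm, Real.rpow_mul (by positivity),
        hkey, Real.rpow_natCast]
    rw [h5] at h4
    rw [div_le_iff₀ hKm]
    push_cast
    calc (N : ℝ) ^ γ ≤ ((R.card : ℝ) * m) ^ (k + 1) := h4
      _ = ((R.card : ℝ) * m) ^ k * ((R.card : ℝ) * m) := by ring

/-- Boolean certificate check: every two distinct elements of `R` differ, modulo one of the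
listed primes, by a listed residue. -/
def nrCheck (m : ℕ) (cert : List (ℕ × List ℕ)) (R : List ℕ) : Bool :=
  R.all fun a => R.all fun b => a == b || cert.any fun pe => pe.2.contains ((a + m - b) % pe.1)

theorem hR_of_check {m : ℕ} {R : List ℕ} {cert : List (ℕ × List ℕ)}
    (hcert : ∀ pe ∈ cert, pe.1 ∣ m ∧ ∀ e ∈ pe.2, ∀ x : ZMod pe.1, x ^ 2 ≠ (e : ZMod pe.1))
    (hlt : ∀ a ∈ R, a < m) (hc : nrCheck m cert R = true) :
    ∀ a ∈ R, ∀ b ∈ R, a ≠ b → ∀ n : ℤ, ¬ (m : ℤ) ∣ (a : ℤ) - b - n ^ 2 := by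
  intro a ha b hb hab n hdvd
  unfold nrCheck at hc
  rw [List.all_eq_true] at hc
  have h1 := hc a ha
  rw [List.all_eq_true] at h1
  have h2 := h1 b hb
  simp only [Bool.or_eq_true, beq_iff_eq, List.any_eq_true, List.contains_iff_mem] at h2
  rcases h2 with h2 | ⟨pe, hpe, hmem⟩
  · exact hab h2
  obtain ⟨hpm, hnr⟩ := hcert pe hpe
  have hblt := hlt b hb
  apply hnr _ hmem (n : ZMod pe.1)
  have hd : ((pe.1 : ℕ) : ℤ) ∣ (a : ℤ) - b - n ^ 2 :=
    (Int.natCast_dvd_natCast.mpr hpm).trans hdvd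
  have h3 : ((n ^ 2 : ℤ) : ZMod pe.1) = (((a : ℤ) - b : ℤ) : ZMod pe.1) :=
    (ZMod.intCast_eq_intCast_iff_dvd_sub _ _ _).mpr hd
  have h4 : (((a + m - b) % pe.1 : ℕ) : ZMod pe.1) = (((a : ℤ) - b : ℤ) : ZMod pe.1) := by
    rw [ZMod.natCast_mod]
    have hm0 : ((m : ℕ) : ZMod pe.1) = 0 := (ZMod.natCast_eq_zero_iff m pe.1).mpr hpm
    rw [Nat.cast_sub (by omega), Nat.cast_add, hm0]
    push_cast
    ring
  rw [h4, ← h3]
  push_cast
  ring

end Vale.Agent.Lib.P042
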