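import Mathlib
import Vale.Agent.Lib.P042.Lower

namespace Vale.Agent.Lib.P042

/-- Digit set for `(d+1)`-th powers: the numbers below `m^((d+1) j)` whose base-`m` digits in the
positions divisible by `d+1` lie in `R` (all other digits are arbitrary). -/
def powSet (d m : ℕ) (R : Finset ℕ) : ℕ → Finset ℕ
  | 0 => {0}
  | j + 1 => ((R ×ˢ Finset.range (m ^ d)) ×ˢ powSet d m R j).image
      (fun x => x.1.1 + m * x.1.2 + m ^ (d + 1) * x.2)

theorem powSet_lt {d m : ℕ} {R : Finset ℕ} (hRm : ∀ a ∈ R, a < m) :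
    ∀ j, ∀ x ∈ powSet d m R j, x < (m ^ (d + 1)) ^ j
  | 0, x, hx => by
    simp only [powSet, Finset.mem_singleton] at hx
    simp [hx]
  | j + 1, x, hx => by
    simp only [powSet, Finset.mem_image, Finset.mem_product, Finset.mem_range, Prod.exists] at hx
    obtain ⟨r, t, y, ⟨⟨hr, ht⟩, hy⟩, rfl⟩ := hx
    have h1 := hRm r hr
    have h2 := powSet_lt hRm j y hy
    have h3 : m * (t + 1) ≤ m * m ^ d := Nat.mul_le_mul_left _ ht
    have h4 : m ^ (d + 1) * (y + 1) ≤ m ^ (d + 1) * (m ^ (d + 1)) ^ j := Nat.mul_le_mul_left _ h2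
    have h5 : m ^ (d + 1) = m * m ^ d := by ring
    have h6 : (m ^ (d + 1)) ^ (j + 1) = m ^ (d + 1) * (m ^ (d + 1)) ^ j := by ring
    rw [h6]
    have h7 : m * (t + 1) = m * t + m := by ring
    have h8 : m ^ (d + 1) * (y + 1) = m ^ (d + 1) * y + m ^ (d + 1) := by ring
    omega

theorem powSet_card {d m : ℕ} {R : Finset ℕ} (hRm : ∀ a ∈ R, a < m) :
    ∀ j, (powSet d m R j).card = (R.card * m ^ d) ^ j
  | 0 => by simp [powSet]
  | j + 1 => by
    rw [powSet, Finset.card_image_of_injOn, Finset.card_product, Finset.card_product,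
      Finset.card_range, powSet_card hRm j, pow_succ]
    · ring
    · rintro ⟨⟨r, t⟩, y⟩ hx ⟨⟨r', t'⟩, y'⟩ hx' h
      simp only [Finset.coe_product, Set.mem_prod, Finset.mem_coe, Finset.mem_range] at hx hx'
      simp only at h
      obtain ⟨⟨hr, ht⟩, -⟩ := hx
      obtain ⟨⟨hr', ht'⟩, -⟩ := hx'
      have hr1 := hRm r hr
      have hr1' := hRm r' hr'
      have hmpos : 0 < m := by omega
      have hmd : 0 < m ^ d := pow_pos hmpos d
      have e1 : r + m * t + m ^ (d + 1) * y = r + m * (t + m ^ d * y) := by ring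
      have e2 : r' + m * t' + m ^ (d + 1) * y' = r' + m * (t' + m ^ d * y') := by ring
      rw [e1, e2] at h
      have h1 : r = r' := by
        have := congrArg (· % m) h
        simp only [Nat.add_mul_mod_self_left] at this
        rwa [Nat.mod_eq_of_lt hr1, Nat.mod_eq_of_lt hr1'] at this
      subst h1
      have h2 : t + m ^ d * y = t' + m ^ d * y' := by
        have : m * (t + m ^ d * y) = m * (t' + m ^ d * y') := by omega
        exact Nat.eq_of_mul_eq_mul_left hmpos this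
      have h3 : t = t' := by
        have := congrArg (· % m ^ d) h2
        simp only [Nat.add_mul_mod_self_left] at this
        rwa [Nat.mod_eq_of_lt ht, Nat.mod_eq_of_lt ht'] at this
      subst h3
      have h4 : y = y' := by
        have : m ^ d * y = m ^ d * y' := by omega
        exact Nat.eq_of_mul_eq_mul_left hmd this
      subst h4
      rfl

theorem powSet_powfree {d m : ℕ} {R : Finset ℕ} (hsq : Squarefree m) (hRm : ∀ a ∈ R, a < m)
    (hR : ∀ a ∈ R, ∀ b ∈ R, a ≠ b → ∀ n : ℤ, ¬ (m : ℤ) ∣ (a : ℤ) - b - n ^ (d + 1)) :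
    ∀ j, ∀ x ∈ powSet d m R j, ∀ y ∈ powSet d m R j, x ≠ y →
      ∀ n : ℤ, (x : ℤ) - y ≠ n ^ (d + 1)
  | 0, x, hx, y, hy, hxy, n, _ => by
    simp only [powSet, Finset.mem_singleton] at hx hy
    exact hxy (hx.trans hy.symm)
  | j + 1, x, hx, y, hy, hxy, n, hn => by
    simp only [powSet, Finset.mem_image, Finset.mem_product, Finset.mem_range, Prod.exists]
      at hx hy
    obtain ⟨r, t, x', ⟨⟨hr, ht⟩, hx'⟩, rfl⟩ := hx
    obtain ⟨r', t', y', ⟨⟨hr', ht'⟩, hy'⟩, rfl⟩ := hy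
    push_cast at hn
    have hmpos : 0 < m := lt_of_le_of_lt (Nat.zero_le _) (hRm r hr)
    have hsqZ : Squarefree (m : ℤ) := Int.squarefree_natCast.mpr hsq
    have hdvd : ∀ z : ℤ, (m : ℤ) ∣ z ^ (d + 1) → (m : ℤ) ∣ z :=
      fun z hz => (hsqZ.dvd_pow_iff_dvd (Nat.succ_ne_zero d)).mp hz
    have hm0 : (m : ℤ) ≠ 0 := by positivity
    have hmd0 : (m : ℤ) ^ d ≠ 0 := pow_ne_zero _ hm0
    by_cases hrr : r = r'
    · subst hrr
      by_cases htt : t = t'
      · subst htt
        have hxy' : x' ≠ y' := by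
          rintro rfl
          exact hxy rfl
        have h1 : n ^ (d + 1) = (m : ℤ) ^ (d + 1) * ((x' : ℤ) - y') := by linarith
        have h2 : (m : ℤ) ∣ n := by
          apply hdvd
          rw [h1]
          exact Dvd.dvd.mul_right (dvd_pow_self _ (Nat.succ_ne_zero d)) _
        obtain ⟨n1, rfl⟩ := h2
        have h3 : (x' : ℤ) - y' = n1 ^ (d + 1) := by
          have hm2 : (m : ℤ) ^ (d + 1) ≠ 0 := pow_ne_zero _ hm0
          apply mul_left_cancel₀ hm2
          rw [← h1]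
          ring
        exact powSet_powfree hsq hRm hR j x' hx' y' hy' hxy' n1 h3
      · have h1 : n ^ (d + 1) = (m : ℤ) * (((t : ℤ) - t') + (m : ℤ) ^ d * ((x' : ℤ) - y')) := by
          rw [← hn]
          ring
        have h2 : (m : ℤ) ∣ n := by
          apply hdvd
          rw [h1]
          exact dvd_mul_right _ _
        obtain ⟨n1, rfl⟩ := h2
        have h3 : ((t : ℤ) - t') + (m : ℤ) ^ d * ((x' : ℤ) - y') = (m : ℤ) ^ d * n1 ^ (d + 1) := by
          apply mul_left_cancel₀ hm0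
          rw [← h1]
          ring
        have h4 : (m : ℤ) ^ d ∣ (t : ℤ) - t' := by
          have : (t : ℤ) - t' = (m : ℤ) ^ d * (n1 ^ (d + 1) - ((x' : ℤ) - y')) := by linarith
          rw [this]
          exact dvd_mul_right _ _
        have ht1 : (t : ℤ) < (m : ℤ) ^ d := by exact_mod_cast ht
        have ht2 : (t' : ℤ) < (m : ℤ) ^ d := by exact_mod_cast ht'
        have h5 : |(t : ℤ) - t'| < (m : ℤ) ^ d := by
          rw [abs_lt]
          constructor <;> omega
        have h6 := Int.eq_zero_of_abs_lt_dvd h4 h5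
        apply htt
        omega
    · apply hR r hr r' hr' hrr n
      refine ⟨-(((t : ℤ) - t') + (m : ℤ) ^ d * ((x' : ℤ) - y')), ?_⟩
      rw [← hn]
      ring

theorem rpow_key_pow (m K : ℝ) (d : ℕ) (hm : 1 < m) (hK : 0 < K) :
    (m ^ (d + 1)) ^ (((d : ℝ) + Real.log K / Real.log m) / ((d : ℝ) + 1)) = K * m ^ d := by
  have hm0 : 0 < m := by linarith
  have hlog : 0 < Real.log m := Real.log_pos hm
  have hd1 : (0 : ℝ) < (d : ℝ) + 1 := by positivity
  have h1 : (m ^ (d + 1) : ℝ) = m ^ ((d : ℝ) + 1) := by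
    rw [← Real.rpow_natCast]
    push_cast
    rfl
  rw [h1, ← Real.rpow_mul hm0.le]
  have h2 : ((d : ℝ) + 1) * (((d : ℝ) + Real.log K / Real.log m) / ((d : ℝ) + 1))
      = (d : ℝ) + Real.log K / Real.log m := by
    field_simp
  rw [h2, Real.rpow_add hm0, Real.rpow_natCast]
  have h3 : m ^ (Real.log K / Real.log m) = K := by
    rw [Real.rpow_def_of_pos hm0]
    have : Real.log m * (Real.log K / Real.log m) = Real.log K := by
      field_simp
    rw [this, Real.exp_log hK]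
  rw [h3]
  ring

/-- Ruzsa-type lower bound for `(d+1)`-th powers: a residue set `R` modulo a squarefree `m`, no two
of whose elements differ by a `(d+1)`-th power residue, gives for every `N` a subset of
`{1, …, N}` without `(d+1)`-th power differences of size at least `N^γ / (|R| m^d)`, where
`γ = (d + log |R| / log m) / (d + 1)`. -/
theorem power_lower {d m : ℕ} {R : Finset ℕ} (hm : 2 ≤ m) (hsq : Squarefree m)
    (hRm : ∀ a ∈ R, a < m)
    (hR : ∀ a ∈ R, ∀ b ∈ R, a ≠ b → ∀ n : ℤ, ¬ (m : ℤ) ∣ (a : ℤ) - b - n ^ (d + 1))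
    (hRne : R.Nonempty) (N : ℕ) (hN : 1 ≤ N) :
    ∃ A : Finset ℕ, A ⊆ Finset.Icc 1 N ∧
      (∀ a ∈ A, ∀ b ∈ A, ∀ n : ℕ, 1 ≤ n → (a : ℤ) - b ≠ (n : ℤ) ^ (d + 1)) ∧
      (N : ℝ) ^ (((d : ℝ) + Real.log R.card / Real.log m) / ((d : ℝ) + 1)) / (R.card * m ^ d)
        ≤ A.card := by
  set j := Nat.log (m ^ (d + 1)) N with hj
  have hb : 1 < m ^ (d + 1) := Nat.one_lt_pow (Nat.succ_ne_zero d) (by omega)
  have h1 : (m ^ (d + 1)) ^ j ≤ N := Nat.pow_log_le_self _ (by omega)
  have h2 : N < (m ^ (d + 1)) ^ (j + 1) := Nat.lt_pow_succ_log_self hb N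
  refine ⟨(powSet d m R j).image (· + 1), ?_, ?_, ?_⟩
  · intro a ha
    simp only [Finset.mem_image] at ha
    obtain ⟨x, hx, rfl⟩ := ha
    have := powSet_lt hRm j x hx
    simp only [Finset.mem_Icc]
    omega
  · intro a ha b hb' n hn h
    simp only [Finset.mem_image] at ha hb'
    obtain ⟨x, hx, rfl⟩ := ha
    obtain ⟨y, hy, rfl⟩ := hb'
    have hxy : x ≠ y := by
      rintro rfl
      push_cast at h
      have h0 : (n : ℤ) ^ (d + 1) = 0 := by linarith
      have h00 : (n : ℤ) = 0 := pow_eq_zero_iff (Nat.succ_ne_zero d) |>.mp h0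
      have : n = 0 := by exact_mod_cast h00
      omega
    apply powSet_powfree hsq hRm hR j x hx y hy hxy (n : ℤ)
    push_cast at h
    linarith
  · have hcard : ((powSet d m R j).image (· + 1)).card = (R.card * m ^ d) ^ j := by
      rw [Finset.card_image_of_injective _ (add_left_injective 1), powSet_card hRm j]
    rw [hcard]
    have hK1 : 1 ≤ R.card := Finset.card_pos.mpr hRne
    have hKpos : (0 : ℝ) < R.card := by exact_mod_cast hK1
    have hmR : (1 : ℝ) < m := by exact_mod_cast (by omega : 1 < m)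
    have hlogm : 0 < Real.log m := Real.log_pos hmR
    have hlogK : 0 ≤ Real.log R.card := Real.log_nonneg (by exact_mod_cast hK1)
    set γ : ℝ := ((d : ℝ) + Real.log R.card / Real.log m) / ((d : ℝ) + 1) with hγ
    have hγ0 : 0 ≤ γ := by
      rw [hγ]
      have : 0 ≤ Real.log R.card / Real.log m := div_nonneg hlogK hlogm.le
      positivity
    have hkey : ((m : ℝ) ^ (d + 1)) ^ γ = R.card * (m : ℝ) ^ d := rpow_key_pow m R.card d hmR hKpos
    have hKm : (0 : ℝ) < R.card * (m : ℝ) ^ d := by positivity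
    have h3 : (N : ℝ) ≤ ((m : ℝ) ^ (d + 1)) ^ (j + 1) := by
      have : (N : ℝ) ≤ (((m ^ (d + 1)) ^ (j + 1) : ℕ) : ℝ) := by exact_mod_cast h2.le
      simpa using this
    have h4 : (N : ℝ) ^ γ ≤ (((m : ℝ) ^ (d + 1)) ^ (j + 1)) ^ γ :=
      Real.rpow_le_rpow (by positivity) h3 hγ0
    have h5 : (((m : ℝ) ^ (d + 1)) ^ (j + 1)) ^ γ = ((R.card : ℝ) * (m : ℝ) ^ d) ^ (j + 1) := by
      rw [← Real.rpow_natCast, ← Real.rpow_mul (by positivity), mul_comm,
        Real.rpow_mul (by positivity), hkey, Real.rpow_natCast]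
    rw [h5] at h4
    rw [div_le_iff₀ hKm]
    push_cast
    calc (N : ℝ) ^ γ ≤ ((R.card : ℝ) * (m : ℝ) ^ d) ^ (j + 1) := h4
      _ = ((R.card : ℝ) * (m : ℝ) ^ d) ^ j * ((R.card : ℝ) * (m : ℝ) ^ d) := by ring

theorem hR_of_check_pow {k m : ℕ} {R : List ℕ} {cert : List (ℕ × List ℕ)}
    (hcert : ∀ pe ∈ cert, pe.1 ∣ m ∧ ∀ e ∈ pe.2, ∀ x : ZMod pe.1, x ^ k ≠ (e : ZMod pe.1))
    (hlt : ∀ a ∈ R, a < m) (hc : nrCheck m cert R = true) :
    ∀ a ∈ R, ∀ b ∈ R, a ≠ b → ∀ n : ℤ, ¬ (m : ℤ) ∣ (a : ℤ) - b - n ^ k := by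
  intro a ha b hb hab n hdvd
  unfold nrCheck at hc
  rw [List.all_eq_true] at hc
  have h1 := hc a ha
  rw [List.all_eq_true] at h1
  have h2 := h1 b hb
  simp only [Bool.or_eq_true, beq_iff_eq, List.any_eq_true, List.contains_iff_mem] at h2
  rcases h2 with h2 | ⟨pe, hpe, hmem⟩
  · exact hab h2
  obtain ⟨hpm, hnr⟩ := hcert pe hpe
  have hblt := hlt b hb
  apply hnr _ hmem (n : ZMod pe.1)
  have hd : ((pe.1 : ℕ) : ℤ) ∣ (a : ℤ) - b - n ^ k :=
    (Int.natCast_dvd_natCast.mpr hpm).trans hdvd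
  have h3 : ((n ^ k : ℤ) : ZMod pe.1) = (((a : ℤ) - b : ℤ) : ZMod pe.1) :=
    (ZMod.intCast_eq_intCast_iff_dvd_sub _ _ _).mpr hd
  have h4 : (((a + m - b) % pe.1 : ℕ) : ZMod pe.1) = (((a : ℤ) - b : ℤ) : ZMod pe.1) := by
    rw [ZMod.natCast_mod]
    have hm0 : ((m : ℕ) : ZMod pe.1) = 0 := (ZMod.natCast_eq_zero_iff m pe.1).mpr hpm
    rw [Nat.cast_sub (by omega), Nat.cast_add, hm0]
    push_cast
    ring
  rw [h4, ← h3]
  push_cast
  ring

end Vale.Agent.Lib.P042
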